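import Vale.Agent.P268W2.Defs

/-!
# P268: the sum of a convergent power series is analytic, with the expected derivatives
-/

namespace Vale.Agent.P268W2

open MvPowerSeries Filter Topology Metric

variable {N : ℕ}

theorem exists_idx (n : ℕ) (d : Fin N →₀ ℕ) (h : d.degree = n) :
    ∃ e : Fin n → Fin N, ∀ z : Fin N → ℂ, ∏ j, z (e j) = ∏ i, z i ^ d i := by
  have h1 : (Finsupp.toMultiset d).toList.length = n := by
    rw [Multiset.length_toList, Finsupp.card_toMultiset, ← h, Finsupp.degree_apply]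
    rfl
  subst h1
  refine ⟨fun j => (Finsupp.toMultiset d).toList.get j, fun z => ?_⟩
  rw [← List.prod_ofFn, show (fun j => z ((Finsupp.toMultiset d).toList.get j)) =
    z ∘ (Finsupp.toMultiset d).toList.get from rfl, ← List.map_ofFn, List.ofFn_get,
    Multiset.prod_map_toList, Finsupp.toMultiset_map, Finsupp.prod_toMultiset,
    Finsupp.prod_mapDomain_index (by simp) (by simp [pow_add]),
    Finsupp.prod_fintype _ _ (by simp)]

theorem exists_mul (n : ℕ) (d : Fin N →₀ ℕ) :
    ∃ L : ContinuousMultilinearMap ℂ (fun _ : Fin n => Fin N → ℂ) ℂ, ‖L‖ ≤ 1 ∧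
      (d.degree = n → ∀ z, L (fun _ => z) = ∏ i, z i ^ d i) := by
  by_cases h : d.degree = n
  · obtain ⟨e, he⟩ := exists_idx n d h
    refine ⟨(ContinuousMultilinearMap.mkPiAlgebra ℂ (Fin n) ℂ).compContinuousLinearMap
      fun j => ContinuousLinearMap.proj (e j), ?_, fun _ z => by simpa using he z⟩
    refine ContinuousMultilinearMap.opNorm_le_bound zero_le_one fun m => ?_
    simp only [ContinuousMultilinearMap.compContinuousLinearMap_apply,
      ContinuousMultilinearMap.mkPiAlgebra_apply, ContinuousLinearMap.proj_apply, norm_prod,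
      one_mul]
    exact Finset.prod_le_prod (fun _ _ => norm_nonneg _) fun j _ => norm_le_pi_norm (m j) (e j)
  · exact ⟨0, by simp, fun h' => absurd h' h⟩

theorem fin_deg (N n : ℕ) : {d : Fin N →₀ ℕ | d.degree = n}.Finite :=
  (Finsupp.finite_of_degree_le n).subset fun _ h => le_of_eq h

/-- The multilinear series of a formal power series. -/
noncomputable def fms (f : MvPowerSeries (Fin N) ℂ) :
    FormalMultilinearSeries ℂ (Fin N → ℂ) ℂ :=
  fun n => ∑ d ∈ (fin_deg N n).toFinset, coeff d f • (exists_mul n d).choose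

theorem fms_diag (f : MvPowerSeries (Fin N) ℂ) (n : ℕ) (z : Fin N → ℂ) :
    fms f n (fun _ => z) = ∑ d ∈ (fin_deg N n).toFinset, term f z d := by
  rw [fms, _root_.sum_apply]
  refine Finset.sum_congr rfl fun d hd => ?_
  rw [_root_.smul_apply,
    (exists_mul n d).choose_spec.2 ((fin_deg N n).mem_toFinset.1 hd), smul_eq_mul, term]

theorem norm_fms (f : MvPowerSeries (Fin N) ℂ) (n : ℕ) :
    ‖fms f n‖ ≤ ∑ d ∈ (fin_deg N n).toFinset, ‖coeff d f‖ := by
  refine (norm_sum_le _ _).trans (Finset.sum_le_sum fun d _ => ?_)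
  rw [norm_smul]
  exact mul_le_of_le_one_right (norm_nonneg _) (exists_mul n d).choose_spec.1

theorem norm_term_const (f : MvPowerSeries (Fin N) ℂ) {r : ℝ} (hr : 0 ≤ r) (d : Fin N →₀ ℕ) :
    ‖term f (fun _ => (r : ℂ)) d‖ = ‖coeff d f‖ * r ^ d.degree := by
  rw [term, Finset.prod_pow_eq_pow_sum, norm_mul, norm_pow, Complex.norm_real,
    Real.norm_of_nonneg hr, Finsupp.degree_eq_sum]

theorem exists_ball (f : Conv N) :
    ∃ r : ℝ, 0 < r ∧ ∀ z ∈ closedBall (0 : Fin N → ℂ) r, Summable (term f z) :=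
  nhds_basis_closedBall.eventually_iff.1 f.2

theorem hasF (f : Conv N) : HasFPowerSeriesAt (val f) (fms f) 0 := by
  obtain ⟨r, hr, h⟩ := exists_ball f
  lift r to NNReal using hr.le
  have h1 : Summable fun d : Fin N →₀ ℕ => ‖coeff d f.1‖ * (r : ℝ) ^ d.degree := by
    refine (summable_norm_iff.2 (h (fun _ => ((r : ℝ) : ℂ)) ?_)).congr
      (norm_term_const f.1 hr.le)
    rw [mem_closedBall_zero_iff, pi_norm_le_iff_of_nonneg hr.le]
    intro i
    simp
  refine ⟨r, FormalMultilinearSeries.le_radius_of_bound _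
    (∑' d : Fin N →₀ ℕ, ‖coeff d f.1‖ * (r : ℝ) ^ d.degree) fun n => ?_, by exact_mod_cast hr,
    fun {y} hy => ?_⟩
  · refine (mul_le_mul_of_nonneg_right (norm_fms f.1 n) (by positivity)).trans ?_
    rw [Finset.sum_mul]
    refine le_trans (le_of_eq (Finset.sum_congr rfl fun d hd => ?_))
      (h1.sum_le_tsum _ fun d _ => by positivity)
    rw [(fin_deg N n).mem_toFinset.1 hd]
  · have hy' : y ∈ closedBall (0 : Fin N → ℂ) r :=
      ball_subset_closedBall (by rwa [Metric.eball_coe] at hy)
    rw [zero_add]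
    refine ((h y hy').hasSum.tsum_fiberwise Finsupp.degree).congr_fun fun n => ?_
    rw [fms_diag, ← Finset.tsum_subtype', Set.Finite.coe_toFinset]
    rfl

theorem analyticAt_val (f : Conv N) : AnalyticAt ℂ (val f) 0 := ⟨_, hasF f⟩

theorem iter_eq_zero_iff (f : Conv N) (n : ℕ) :
    iteratedFDeriv ℂ n (val f) 0 = 0 ↔ ∀ d : Fin N →₀ ℕ, d.degree = n → coeff d f.1 = 0 := by
  obtain ⟨r, hr⟩ := hasF f
  refine ⟨fun h d hd => ?_, fun h => ?_⟩
  · have h1 : (∑ d ∈ (fin_deg N n).toFinset, MvPolynomial.monomial d (coeff d f.1)) = 0 := by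
      refine MvPolynomial.funext fun z => ?_
      have h2 := hr.factorial_smul z n
      rw [h, _root_.zero_apply, nsmul_eq_mul, mul_eq_zero, fms_diag] at h2
      rw [map_zero, map_sum, ← h2.resolve_left (Nat.cast_ne_zero.2 n.factorial_ne_zero)]
      refine Finset.sum_congr rfl fun d _ => ?_
      rw [MvPolynomial.eval_monomial, Finsupp.prod_fintype _ _ (by simp), term]
    have h3 := congrArg (MvPolynomial.coeff d) h1
    rw [MvPolynomial.coeff_sum, Finset.sum_eq_single d (fun b _ hb => by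
      rw [MvPolynomial.coeff_monomial, if_neg hb])
      (fun hb => absurd ((fin_deg N n).mem_toFinset.2 hd) hb)] at h3
    simpa using h3
  · have h1 : fms f.1 n = 0 :=
      Finset.sum_eq_zero fun d hd => by
        rw [h d ((fin_deg N n).mem_toFinset.1 hd)]
        ext v
        simp
    ext v
    rw [hr.iteratedFDeriv_eq_sum_of_completeSpace, h1]
    simp

theorem ord_iff (f : Conv N) (m : ℕ) :
    Ord f m ↔ IsLeast {k | iteratedFDeriv ℂ k (val f) 0 ≠ 0} m := by
  have : {n | ∃ d : Fin N →₀ ℕ, ∑ i, d i = n ∧ coeff d f.1 ≠ 0} =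
      {k | iteratedFDeriv ℂ k (val f) 0 ≠ 0} := by
    ext k
    simp only [Set.mem_ofPred_eq, ne_eq, iter_eq_zero_iff, not_forall, Finsupp.degree_eq_sum,
      exists_prop]
  rw [Ord, this]

theorem val_zero (f : Conv N) : val f 0 = constantCoeff f.1 := by
  rw [val, tsum_eq_single 0]
  · simp [term]
  · intro d hd
    obtain ⟨i, hi⟩ := Finsupp.ne_iff.1 hd
    rw [term, Finset.prod_eq_zero (Finset.mem_univ i) (zero_pow hi), mul_zero]

theorem val_mul (f g : Conv N) : val (f * g) =ᶠ[𝓝 0] fun z => val f z * val g z :=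
  (Filter.Eventually.and f.2 g.2).mono fun z h => by
    simp only [val]
    rw [h.1.tsum_mul_tsum_eq_tsum_sum_antidiagonal h.2 (summable_pair h.1 h.2)]
    exact tsum_congr (term_mul f.1 g.1 z)

theorem val_add (f g : Conv N) : val (f + g) =ᶠ[𝓝 0] fun z => val f z + val g z :=
  (Filter.Eventually.and f.2 g.2).mono fun z h => by
    simp only [val]
    rw [← h.1.tsum_add h.2]
    exact tsum_congr fun d => by simp [term, add_mul]

/-- The identity theorem: a convergent series is determined by the germ of its sum. -/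
theorem val_inj {f g : Conv N} (h : val f =ᶠ[𝓝 0] val g) : f = g := by
  have h1 : val (f - g) =ᶠ[𝓝 0] fun _ => 0 := by
    filter_upwards [val_add (f - g) g, h] with z h2 h3
    rw [sub_add_cancel, h3] at h2
    exact left_eq_add.1 (h2.trans (add_comm _ _))
  rw [← sub_eq_zero]
  refine Subtype.ext (MvPowerSeries.ext fun d => ?_)
  refine (iter_eq_zero_iff (f - g) d.degree).1 ?_ d rfl
  rw [(h1.iteratedFDeriv ℂ d.degree).eq_of_nhds]
  simp

end Vale.Agent.P268W2
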