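import Mathlib

/-!
# P268: convergent power series, reduced germs, ambient homeomorphism, as in the problem text
-/

namespace Vale.Agent.P268W2

open MvPowerSeries Filter Topology

variable {N : ℕ}

/-- The term `a_d z^d` of the power series `f = ∑ a_d z^d` at the point `z` of `ℂ^N`. -/
noncomputable def term (f : MvPowerSeries (Fin N) ℂ) (z : Fin N → ℂ) (d : Fin N →₀ ℕ) : ℂ :=
  coeff d f * ∏ i, z i ^ d i

theorem term_mul (f g : MvPowerSeries (Fin N) ℂ) (z : Fin N → ℂ) (d : Fin N →₀ ℕ) :
    term (f * g) z d = ∑ p ∈ Finset.HasAntidiagonal.antidiagonal d, term f z p.1 * term g z p.2 := by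
  rw [term, coeff_mul, Finset.sum_mul]
  refine Finset.sum_congr rfl fun p hp => ?_
  rw [← Finset.HasAntidiagonal.mem_antidiagonal.1 hp]
  simp only [term, Finsupp.add_apply, pow_add, Finset.prod_mul_distrib]
  ring

theorem summable_pair {f g : MvPowerSeries (Fin N) ℂ} {z : Fin N → ℂ}
    (hf : Summable (term f z)) (hg : Summable (term g z)) :
    Summable fun p : (Fin N →₀ ℕ) × (Fin N →₀ ℕ) => term f z p.1 * term g z p.2 :=
  summable_mul_of_summable_norm (summable_norm_iff.2 hf) (summable_norm_iff.2 hg)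

theorem summable_term_mul {f g : MvPowerSeries (Fin N) ℂ} {z : Fin N → ℂ}
    (hf : Summable (term f z)) (hg : Summable (term g z)) : Summable (term (f * g) z) :=
  (summable_sum_mul_antidiagonal_of_summable_mul (summable_pair hf hg)).congr
    fun d => (term_mul f g z d).symm

theorem hasSum_term_coe (P : MvPolynomial (Fin N) ℂ) (z : Fin N → ℂ) :
    HasSum (term (P : MvPowerSeries (Fin N) ℂ) z) (MvPolynomial.eval z P) := by
  rw [MvPolynomial.eval_eq']
  refine hasSum_sum_of_ne_finset_zero fun d hd => ?_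
  rw [term, MvPolynomial.coeff_coe, MvPolynomial.notMem_support_iff.1 hd, zero_mul]

/-- The ring `ℂ{z_1, …, z_N}` of convergent power series: the formal power series
`∑ a_d z^d` which converge at every point `z` of some neighbourhood of the origin. -/
def Conv (N : ℕ) : Subalgebra ℂ (MvPowerSeries (Fin N) ℂ) where
  carrier := {f | ∀ᶠ z in 𝓝 (0 : Fin N → ℂ), Summable (term f z)}
  mul_mem' hf hg := (hf.and hg).mono fun _ h => summable_term_mul h.1 h.2
  add_mem' hf hg := (hf.and hg).mono fun _ h =>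
    (h.1.add h.2).congr fun d => by simp only [term, map_add, add_mul]
  algebraMap_mem' c := Eventually.of_forall fun z => by
    have h := (hasSum_term_coe (MvPolynomial.C c) z).summable
    rwa [MvPolynomial.coe_C, c_eq_algebraMap] at h

/-- `f` has no repeated irreducible factor in `ℂ{z_1, …, z_N}`. -/
def Reduced (f : Conv N) : Prop :=
  ∀ p : Conv N, Irreducible p → ¬ p ^ 2 ∣ f

/-- The zero set `V(f)`: the points where the series `f` converges with sum `0`. -/
def V (f : Conv N) : Set (Fin N → ℂ) :=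
  {z | HasSum (term f z) 0}

/-- The germs `V(f)`, `V(g)` are ambiently homeomorphic: there are open neighbourhoods `U`, `U'`
of `0` (on which `f`, respectively `g`, converges) and a homeomorphism `φ : U → U'` with
`φ(0) = 0` and `φ(V(f) ∩ U) = V(g) ∩ U'`. -/
def AmbHomeo (f g : Conv N) : Prop :=
  ∃ (U U' : Set (Fin N → ℂ)) (h : 0 ∈ U) (h' : 0 ∈ U') (φ : U ≃ₜ U'), IsOpen U ∧ IsOpen U' ∧
    (∀ z ∈ U, Summable (term f z)) ∧ (∀ z ∈ U', Summable (term g z)) ∧
    φ ⟨0, h⟩ = ⟨0, h'⟩ ∧ φ '' {z | z.1 ∈ V f} = {z | z.1 ∈ V g}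

/-- The multiplicity `ord_0 f` is `m`: the least total degree of a monomial with nonzero
coefficient in `f`. -/
def Ord (f : Conv N) (m : ℕ) : Prop :=
  IsLeast {n | ∃ d : Fin N →₀ ℕ, ∑ i, d i = n ∧ coeff d f.1 ≠ 0} m

/-- The sum of the series `f` at `z`. -/
noncomputable def val (f : Conv N) (z : Fin N → ℂ) : ℂ :=
  ∑' d, term f z d

end Vale.Agent.P268W2
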