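import Vale.Agent.P268W2.An
import Vale.Agent.P218GV.GV8

/-!
# P268: convergent power series are the germs of analytic functions; units; reduced germs
-/

namespace Vale.Agent.P268W2

open MvPowerSeries Filter Topology Metric

variable {N : ℕ}

/-- Every analytic germ is the sum of a convergent power series. -/
theorem exists_val {h : (Fin N → ℂ) → ℂ} (hh : AnalyticAt ℂ h 0) :
    ∃ f : Conv N, val f =ᶠ[𝓝 0] h := by
  have h1 : ∀ᶠ z in 𝓝 (0 : Fin N → ℂ), ‖h z‖ < ‖h 0‖ + 1 :=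
    hh.continuousAt.norm.eventually_lt_const (lt_add_one _)
  obtain ⟨r, hr, h2⟩ := nhds_basis_ball.eventually_iff.1 (h1.and hh.eventually_analyticAt)
  have h3 : P218GV.pd (fun _ : Fin N => r) = ball 0 r := by
    ext z
    rw [mem_ball_zero_iff, pi_norm_lt_iff hr]
    rfl
  obtain ⟨c, -, hc⟩ := P218GV.exists_series (R := fun _ : Fin N => r) (h := h) (M := ‖h 0‖ + 1)
    (fun _ => hr) (by rw [h3]; exact fun z hz => (h2 hz).2.differentiableAt.differentiableWithinAt)
    (by rw [h3]; exact fun z hz => (h2 hz).1.le)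
  rw [h3] at hc
  exact ⟨⟨c, mem_of_superset (ball_mem_nhds 0 hr) fun z hz => (hc z hz).summable⟩,
    mem_of_superset (ball_mem_nhds 0 hr) fun z hz => (hc z hz).tsum_eq⟩

/-- A polynomial as a convergent power series. -/
noncomputable def ofPoly (P : MvPolynomial (Fin N) ℂ) : Conv N :=
  ⟨P, Eventually.of_forall fun z => (hasSum_term_coe P z).summable⟩

theorem val_ofPoly (P : MvPolynomial (Fin N) ℂ) (z : Fin N → ℂ) :
    val (ofPoly P) z = MvPolynomial.eval z P :=
  (hasSum_term_coe P z).tsum_eq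

theorem val_one (z : Fin N → ℂ) : val (1 : Conv N) z = 1 := by
  have h : (1 : Conv N) = ofPoly 1 := Subtype.ext MvPolynomial.coe_one.symm
  rw [h, val_ofPoly, map_one]

theorem isUnit_iff (f : Conv N) : IsUnit f ↔ constantCoeff f.1 ≠ 0 := by
  refine ⟨fun h => ((h.map (Conv N).val).map constantCoeff).ne_zero, fun h => ?_⟩
  rw [← val_zero] at h
  obtain ⟨g, hg⟩ := exists_val ((analyticAt_val f).inv h)
  refine IsUnit.of_mul_eq_one g (val_inj ?_)
  filter_upwards [val_mul f g, hg, (analyticAt_val f).continuousAt.eventually_ne h] with z h1 h2 h3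
  rw [h1, h2, val_one]
  exact mul_inv_cancel₀ h3

theorem val_sq_mul (u v : Conv N) : val (u ^ 2 * v) =ᶠ[𝓝 0] fun z => val u z ^ 2 * val v z := by
  filter_upwards [val_mul (u ^ 2) v, val_mul u u] with z h1 h2
  rw [h1, sq, h2, sq]

/-- Squarefree elements of `ℂ{z}` in terms of analytic germs. -/
theorem squarefree_iff (f : Conv N) : Squarefree f ↔ ∀ u v : (Fin N → ℂ) → ℂ,
    AnalyticAt ℂ u 0 → AnalyticAt ℂ v 0 → u 0 = 0 →
      ¬ ∀ᶠ z in 𝓝 0, val f z = u z ^ 2 * v z := by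
  refine ⟨fun h u v hu hv h0 h1 => ?_, fun h u ⟨v, hv⟩ => ?_⟩
  · obtain ⟨a, ha⟩ := exists_val hu
    obtain ⟨b, hb⟩ := exists_val hv
    have h2 : f = a ^ 2 * b := val_inj (by
      filter_upwards [h1, ha, hb, val_sq_mul a b] with z e1 e2 e3 e4
      rw [e1, e4, e2, e3])
    have h3 := (isUnit_iff a).1 (h a ⟨b, by rw [h2, sq]⟩)
    rw [← val_zero, ha.eq_of_nhds] at h3
    exact h3 h0
  · rw [isUnit_iff, ← val_zero]
    intro h0
    refine h _ _ (analyticAt_val u) (analyticAt_val v) h0 ?_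
    rw [hv, ← sq]
    exact val_sq_mul u v

theorem wf (N : ℕ) : WfDvdMonoid (Conv N) := by
  refine ⟨(RelHomClass.wellFounded (r := DvdNotUnit) (s := (· < ·))
    (⟨fun f : Conv N => f.1.order, ?_⟩ : _ →r _) wellFounded_lt)⟩
  rintro a b ⟨ha, x, hx, rfl⟩
  have h1 : 1 ≤ x.1.order := one_le_order_iff_constCoeff_eq_zero.2 (by
    by_contra h
    exact hx ((isUnit_iff x).2 h))
  have h2 : a.1.order ≠ ⊤ := fun h => ha (Subtype.ext (order_eq_top_iff.1 h))
  calc a.1.order < a.1.order + 1 := ENat.lt_add_one_iff h2 |>.2 le_rfl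
    _ ≤ a.1.order + x.1.order := by gcongr
    _ ≤ _ := le_order_mul

theorem reduced_iff {f : Conv N} (hf : f ≠ 0) : Reduced f ↔ Squarefree f := by
  have := wf N
  rw [squarefree_iff_no_irreducibles hf]
  simp only [Reduced, sq]

theorem ord_iff_order (f : Conv N) (m : ℕ) : Ord f m ↔ f.1.order = m := by
  rw [order_eq_nat]
  simp only [Ord, IsLeast, lowerBounds, Set.mem_ofPred_eq, ← Finsupp.degree_eq_sum]
  refine and_congr ⟨fun ⟨d, h⟩ => ⟨d, h.symm⟩, fun ⟨d, h⟩ => ⟨d, h.symm⟩⟩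
    ⟨fun h d hd => ?_, fun h n ⟨d, h1, h2⟩ => ?_⟩
  · by_contra h1
    exact absurd (h ⟨d, rfl, h1⟩) (not_le.2 hd)
  · by_contra h3
    exact h2 (h d (h1 ▸ not_le.1 h3))

end Vale.Agent.P268W2
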