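import Vale.Agent.P268W2.Germ

/-!
# P268: partial derivatives in `ℂ{z}`, the Jacobian ideal and the Milnor algebra
-/

namespace Vale.Agent.P268W2

open MvPowerSeries Filter Topology Metric

variable {N : ℕ}

theorem mem_of_shift (f : Conv N) (j : Fin N) {g : MvPowerSeries (Fin N) ℂ}
    (hg : ∀ e : Fin N →₀ ℕ, ‖coeff e g‖ ≤ ‖coeff (e + Finsupp.single j 1) f.1‖ * (e j + 1)) :
    g ∈ Conv N := by
  obtain ⟨r, hr, h⟩ := exists_ball f
  have h1 : Summable fun d : Fin N →₀ ℕ => ‖coeff d f.1‖ * r ^ d.degree := by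
    refine (summable_norm_iff.2 (h (fun _ => (r : ℂ)) ?_)).congr (norm_term_const f.1 hr.le)
    rw [mem_closedBall_zero_iff, pi_norm_le_iff_of_nonneg hr.le]
    intro i
    simp [abs_of_pos hr]
  have h2 := (h1.comp_injective (add_left_injective (Finsupp.single j 1))).mul_right r⁻¹
  filter_upwards [closedBall_mem_nhds (0 : Fin N → ℂ) (half_pos hr)] with z hz
  rw [mem_closedBall_zero_iff] at hz
  refine Summable.of_norm_bounded h2 fun e => ?_
  have h3 : ‖∏ i, z i ^ e i‖ ≤ (r / 2) ^ e.degree := by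
    rw [norm_prod, Finsupp.degree_eq_sum, ← Finset.prod_pow_eq_pow_sum]
    refine Finset.prod_le_prod (fun _ _ => norm_nonneg _) fun i _ => ?_
    rw [norm_pow]
    exact pow_le_pow_left₀ (norm_nonneg _) ((norm_le_pi_norm z i).trans hz) _
  have h4 : ((e j : ℝ) + 1) ≤ 2 ^ e.degree := by
    have h5 : e j + 1 ≤ 2 ^ e.degree :=
      (Nat.lt_two_pow_self (n := e j)).trans_le
        (Nat.pow_le_pow_right two_pos (Finsupp.le_degree j e))
    exact_mod_cast h5
  rw [term, norm_mul, Function.comp, map_add, Finsupp.degree_single, pow_succ, mul_assoc,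
    mul_assoc, mul_inv_cancel₀ hr.ne', mul_one]
  refine (mul_le_mul (hg e) h3 (norm_nonneg _) (by positivity)).trans ?_
  rw [mul_assoc]
  refine mul_le_mul_of_nonneg_left ?_ (norm_nonneg _)
  refine (mul_le_mul_of_nonneg_right h4 (by positivity)).trans (le_of_eq ?_)
  rw [← mul_pow, mul_div_cancel₀ _ two_ne_zero]

/-- The partial derivative `∂f/∂z_j` of a convergent power series. -/
noncomputable def pd (j : Fin N) (f : Conv N) : Conv N :=
  ⟨pderiv ℂ j f.1, mem_of_shift f j fun e => by
    rw [coeff_pderiv, norm_mul]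
    exact le_of_eq (congrArg _ (by exact_mod_cast Complex.norm_natCast (e j + 1)))⟩

/-- The Jacobian ideal `(∂f/∂z_1, …, ∂f/∂z_N)` of `ℂ{z}`. -/
noncomputable def jac (f : Conv N) : Ideal (Conv N) :=
  Ideal.span (Set.range fun j => pd j f)

/-- Polynomials as convergent power series. -/
noncomputable def polyHom (N : ℕ) : MvPolynomial (Fin N) ℂ →ₐ[ℂ] Conv N :=
  (MvPolynomial.coeToMvPowerSeries.algHom ℂ).codRestrict (Conv N) fun P => by
    have h : (P : MvPowerSeries (Fin N) ℂ) ∈ Conv N := (ofPoly P).2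
    simpa using h

theorem polyHom_eq (P : MvPolynomial (Fin N) ℂ) : polyHom N P = ofPoly P :=
  Subtype.ext (by simp [polyHom, ofPoly])

theorem exists_div (g : Conv N) :
    ∃ h : Fin N → Conv N, g = algebraMap ℂ _ (constantCoeff g.1) +
      ∑ j, polyHom N (MvPolynomial.X j) * h j := by
  classical
  let h : Fin N → MvPowerSeries (Fin N) ℂ := fun j e =>
    if ∀ i < j, e i = 0 then coeff (e + Finsupp.single j 1) g.1 else 0
  have h0 : ∀ j e, coeff e (h j) =
      if ∀ i < j, e i = 0 then coeff (e + Finsupp.single j 1) g.1 else 0 := fun _ _ => rfl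
  refine ⟨fun j => ⟨h j, mem_of_shift g j fun e => ?_⟩, Subtype.ext (MvPowerSeries.ext fun d => ?_)⟩
  · rw [h0]
    split_ifs
    · exact le_mul_of_one_le_right (norm_nonneg _) (by simp)
    · simp only [norm_zero]
      positivity
  have h1 : ∀ j, coeff d (X j * h j) =
      if d j ≠ 0 ∧ ∀ i < j, d i = 0 then coeff d g.1 else 0 := fun j => by
    rw [X_def, coeff_monomial_mul, h0, one_mul]
    by_cases hj : d j = 0
    · rw [if_neg (by simp [hj]), if_neg (by simp [hj])]
    · have h2 : Finsupp.single j 1 ≤ d := by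
        simpa using Nat.one_le_iff_ne_zero.2 hj
      rw [if_pos h2, tsub_add_cancel_of_le h2]
      refine if_congr ?_ rfl rfl
      rw [and_iff_right hj]
      refine forall₂_congr fun i hi => ?_
      simp [Finsupp.single_eq_of_ne hi.ne]
  simp only [Subalgebra.coe_add, Subalgebra.coe_algebraMap, AddSubmonoidClass.coe_finsetSum,
    MulMemClass.coe_mul, polyHom_eq, ofPoly, MvPolynomial.coe_X, map_add, map_sum, h1,
    ← c_eq_algebraMap, coeff_C]
  by_cases hd : d = 0
  · subst hd
    simp
  · have h3 : d.support.Nonempty := Finsupp.support_nonempty_iff.2 hd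
    rw [if_neg hd, zero_add, Finset.sum_eq_single (d.support.min' h3), if_pos]
    · refine ⟨Finsupp.mem_support_iff.1 (Finset.min'_mem _ h3), fun i hi => ?_⟩
      by_contra h4
      exact absurd (Finset.min'_le _ i (Finsupp.mem_support_iff.2 h4)) (not_le.2 hi)
    · intro b _ hb
      refine if_neg fun h4 => ?_
      exact Finsupp.mem_support_iff.1 (Finset.min'_mem _ h3) (h4.2 _
        (lt_of_le_of_ne (Finset.min'_le _ b (Finsupp.mem_support_iff.2 h4.1)) hb.symm))
    · simp

theorem approx (M : ℕ) (g : Conv N) : ∃ P, g - polyHom N P ∈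
    Ideal.span (Set.range fun j => polyHom N (MvPolynomial.X j)) ^ M := by
  induction M generalizing g with
  | zero => exact ⟨0, by simp⟩
  | succ M ih =>
    obtain ⟨h, hh⟩ := exists_div g
    choose P hP using fun j => ih (h j)
    refine ⟨MvPolynomial.C (constantCoeff g.1) + ∑ j, MvPolynomial.X j * P j, ?_⟩
    have h1 : g - polyHom N (MvPolynomial.C (constantCoeff g.1) + ∑ j, MvPolynomial.X j * P j) =
        ∑ j, polyHom N (MvPolynomial.X j) * (h j - polyHom N (P j)) := by
      simp only [map_add, map_sum, map_mul, MvPolynomial.algHom_C, mul_sub,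
        Finset.sum_sub_distrib]
      nth_rewrite 1 [hh]
      ring
    rw [h1, pow_succ']
    exact Ideal.sum_mem _ fun j _ => Ideal.mul_mem_mul (Ideal.subset_span ⟨j, rfl⟩) (hP j)

theorem finite_quot {J : Ideal (Conv N)}
    (hJ : ∀ j, polyHom N (MvPolynomial.X j) ∈ J.radical) : Module.Finite ℂ (Conv N ⧸ J) := by
  obtain ⟨M, hM⟩ := Ideal.exists_pow_le_of_le_radical_of_fg
    (I := Ideal.span (Set.range fun j => polyHom N (MvPolynomial.X j))) (J := J)
    (Ideal.span_le.2 (Set.range_subset_iff.2 hJ)) (Submodule.fg_span (Set.finite_range _))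
  let φ := (Ideal.Quotient.mkₐ ℂ J).comp (polyHom N)
  have h1 := Algebra.finite_adjoin_of_finite_of_isIntegral (R := ℂ)
    (Set.finite_range fun j => φ (MvPolynomial.X j)) (by
      rintro _ ⟨j, rfl⟩
      obtain ⟨n, hn⟩ := hJ j
      refine IsIntegral.of_pow (Nat.succ_pos n) ?_
      rw [pow_succ, show φ (MvPolynomial.X j) ^ n = 0 from
        (map_pow (Ideal.Quotient.mk J) _ n).symm.trans (Ideal.Quotient.eq_zero_iff_mem.2 hn),
        zero_mul]
      exact isIntegral_zero)
  refine Module.Finite.of_surjective (Algebra.adjoin ℂ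
    (Set.range fun j => φ (MvPolynomial.X j))).val.toLinearMap fun x => ?_
  obtain ⟨g, rfl⟩ := Ideal.Quotient.mk_surjective x
  obtain ⟨P, hP⟩ := approx M g
  refine ⟨⟨φ P, ?_⟩, (Ideal.Quotient.eq.2 (hM hP)).symm⟩
  clear hP
  induction P using MvPolynomial.induction_on with
  | C a =>
    rw [MvPolynomial.algHom_C]
    exact Subalgebra.algebraMap_mem _ a
  | add P Q hP hQ =>
    rw [map_add]
    exact add_mem hP hQ
  | mul_X P j hP =>
    rw [map_mul]
    exact mul_mem hP (Algebra.subset_adjoin ⟨j, rfl⟩)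

end Vale.Agent.P268W2
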