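import Vale.Agent.P268W2.Mil
import Vale.Agent.P268.Defs

/-!
# P268: integral polynomials as convergent power series
-/

namespace Vale.Agent.P268W2

open MvPowerSeries Filter Topology

variable {N : ℕ}

theorem fderiv_eval (P : MvPolynomial (Fin N) ℂ) (z : Fin N → ℂ) (i : Fin N) :
    fderiv ℂ (fun z => MvPolynomial.eval z P) z (Pi.single i 1) =
      MvPolynomial.eval z (MvPolynomial.pderiv i P) := by
  have hd : ∀ P : MvPolynomial (Fin N) ℂ,
      DifferentiableAt ℂ (fun z => MvPolynomial.eval z P) z :=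
    fun P => (AnalyticOnNhd.eval_mvPolynomial P z (Set.mem_univ _)).differentiableAt
  induction P using MvPolynomial.induction_on with
  | C a => simp
  | add P Q hP hQ =>
    simp only [map_add]
    rw [fderiv_fun_add (hd P) (hd Q), _root_.add_apply, hP, hQ]
  | mul_X P j hP =>
    simp only [map_mul, MvPolynomial.eval_X]
    rw [fderiv_fun_mul (hd P) (differentiableAt_apply j z), (hasFDerivAt_apply j z).fderiv]
    simp only [_root_.add_apply, _root_.smul_apply, hP, smul_eq_mul,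
      ContinuousLinearMap.proj_apply, Derivation.leibniz, map_add, map_mul, MvPolynomial.eval_X,
      MvPolynomial.pderiv_X]
    by_cases hij : j = i
    · subst hij
      simp
    · simp [Pi.single_eq_of_ne hij]

theorem finite_milnor (P : MvPolynomial (Fin N) ℂ)
    (h : ∀ z, fderiv ℂ (fun z => MvPolynomial.eval z P) z = 0 → z = 0) :
    Module.Finite ℂ (Conv N ⧸ jac (ofPoly P)) := by
  refine finite_quot fun j => ?_
  have h1 : MvPolynomial.X j ∈
      (Ideal.span (Set.range fun i => MvPolynomial.pderiv i P)).radical := by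
    rw [← MvPolynomial.vanishingIdeal_zeroLocus_eq_radical (K := ℂ), MvPolynomial.zeroLocus_span]
    intro z hz
    have h2 : z = 0 := h z (by
      refine ContinuousLinearMap.coe_injective (LinearMap.pi_ext' fun i => LinearMap.ext_ring ?_)
      have h3 := hz _ ⟨i, rfl⟩
      rw [MvPolynomial.aeval_eq_eval, ← fderiv_eval] at h3
      simpa using h3)
    simp [h2]
  obtain ⟨n, hn⟩ := h1
  refine ⟨n, ?_⟩
  rw [← map_pow]
  refine (Ideal.span_le.2 ?_ : _ ≤ (jac (ofPoly P)).comap (polyHom N)) hn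
  rintro _ ⟨i, rfl⟩
  refine Ideal.subset_span ⟨i, Subtype.ext ?_⟩
  rw [polyHom_eq]
  exact pderiv_coe P

theorem mem_V (P : MvPolynomial (Fin N) ℂ) (z : Fin N → ℂ) :
    z ∈ V (ofPoly P) ↔ MvPolynomial.eval z P = 0 :=
  ⟨fun h => (hasSum_term_coe P z).unique h, fun h => by
    have h1 := hasSum_term_coe P z
    rwa [h] at h1⟩

theorem val_map (p : MvPolynomial (Fin N) ℤ) :
    val (ofPoly (p.map (Int.castRingHom ℂ))) = fun z => MvPolynomial.aeval z p := by
  funext z
  rw [val_ofPoly, MvPolynomial.eval_map, MvPolynomial.aeval_def]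
  rfl

theorem order_of_mult {f : Conv N} {m : ℕ} (h : P268.mult (val f) = m) (hm : m ≠ 0) :
    f.1.order = m := by
  have hne : {k : ℕ | iteratedFDeriv ℂ k (val f) 0 ≠ 0}.Nonempty := by
    by_contra h0
    rw [Set.not_nonempty_iff_eq_empty] at h0
    rw [P268.mult, h0, Nat.sInf_empty] at h
    exact hm h.symm
  rw [← ord_iff_order, ord_iff, ← h]
  exact ⟨Nat.sInf_mem hne, fun k hk => Nat.sInf_le hk⟩

theorem of_red {f : Conv N} (h : P268.Red (val f)) :
    f ≠ 0 ∧ constantCoeff f.1 = 0 ∧ Reduced f := by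
  have h1 := (squarefree_iff f).2 h.2.2
  exact ⟨h1.ne_zero, val_zero f ▸ h.2.1, (reduced_iff h1.ne_zero).2 h1⟩

theorem amb_of_global {P Q : MvPolynomial (Fin N) ℂ} (φ : (Fin N → ℂ) ≃ₜ (Fin N → ℂ))
    (h0 : φ 0 = 0) (h : φ '' V (ofPoly P) = V (ofPoly Q)) : AmbHomeo (ofPoly P) (ofPoly Q) := by
  refine ⟨Set.univ, Set.univ, trivial, trivial,
    ((Homeomorph.Set.univ _).trans φ).trans (Homeomorph.Set.univ _).symm, isOpen_univ,
    isOpen_univ, fun z _ => (hasSum_term_coe P z).summable,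
    fun z _ => (hasSum_term_coe Q z).summable, Subtype.ext h0, ?_⟩
  rw [← h]
  ext y
  constructor
  · rintro ⟨x, hx, rfl⟩
    exact ⟨x.1, hx, rfl⟩
  · rintro ⟨x, hx, hy⟩
    exact ⟨⟨x, trivial⟩, hx, Subtype.ext hy⟩

theorem of_int {p q : MvPolynomial (Fin N) ℤ} {φ : (Fin N → ℂ) ≃ₜ (Fin N → ℂ)}
    (hφ : ∀ z, MvPolynomial.aeval z p = 0 ↔ MvPolynomial.aeval (φ z) q = 0) :
    φ '' V (ofPoly (p.map (Int.castRingHom ℂ))) = V (ofPoly (q.map (Int.castRingHom ℂ))) := by
  have h : ∀ (r : MvPolynomial (Fin N) ℤ) z, z ∈ V (ofPoly (r.map (Int.castRingHom ℂ))) ↔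
      MvPolynomial.aeval z r = 0 := fun r z => by
    rw [mem_V, ← val_ofPoly, val_map]
  ext y
  constructor
  · rintro ⟨x, hx, rfl⟩
    exact (h q _).2 ((hφ x).1 ((h p x).1 hx))
  · intro hy
    refine ⟨φ.symm y, (h p _).2 ((hφ _).2 ?_), φ.apply_symm_apply y⟩
    rw [φ.apply_symm_apply]
    exact (h q y).1 hy

theorem milnor_int {r : MvPolynomial (Fin N) ℤ}
    (h : ∀ z : Fin N → ℂ, fderiv ℂ (fun z : Fin N → ℂ => MvPolynomial.aeval z r) z = 0 → z = 0) :
    Module.Finite ℂ (Conv N ⧸ jac (ofPoly (r.map (Int.castRingHom ℂ)))) := by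
  refine finite_milnor _ ?_
  rw [← val_map] at h
  rwa [← funext (val_ofPoly _)]

end Vale.Agent.P268W2
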